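import Vale.Agent.P321.Final

namespace Vale.Agent.Results.P321.A0_Combined

open scoped NNReal
open Vale.Agent.P321

/-- (1) If `m` traces suffice for worst-case reconstruction of strings of length `2 ^ k` at
deletion probability `q`, then `3 m C(2^k, k+1) (1-q)^(k+1) ≥ 1`.
(2) The worst-case sample complexity of trace reconstruction is not bounded by any polynomial in
`n` and `1 / (1 - q)` jointly. -/
theorem result :
    (∀ (q : ℝ≥0) (hq : q ≤ 1) (k m : ℕ), Reconstructs q hq (2 ^ k) m →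
      (1 : ℝ) ≤ 3 * m * ((2 ^ k).choose (k + 1) : ℝ) * (1 - (q : ℝ)) ^ (k + 1)) ∧
    (∀ C : ℕ, ∃ (n : ℕ) (q : ℝ≥0) (hq : q ≤ 1), 0 < q ∧ q < 1 ∧
      ∀ m : ℕ, Reconstructs q hq n m → ((n : ℝ) / (1 - (q : ℝ))) ^ C < m) :=
  ⟨fun q hq k m h => lower_bound_real q hq k m h, fun C => no_joint_polynomial C⟩

end Vale.Agent.Results.P321.A0_Combined
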