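import Vale.Agent.P321.Final

namespace Vale.Agent.Results.P321.HighDeletionBound

open scoped NNReal
open Vale.Agent.P321

/-- If `m` traces suffice for worst-case reconstruction of strings of length `2 ^ k` at deletion
probability `q`, then `3 m C(2^k, k+1) (1-q)^(k+1) ≥ 1`. -/
theorem result (q : ℝ≥0) (hq : q ≤ 1) (k m : ℕ) (h : Reconstructs q hq (2 ^ k) m) :
    (1 : ℝ) ≤ 3 * m * ((2 ^ k).choose (k + 1) : ℝ) * (1 - (q : ℝ)) ^ (k + 1) :=
  lower_bound_real q hq k m h

end Vale.Agent.Results.P321.HighDeletionBound
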