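import Vale.Agent.P321.Final

namespace Vale.Agent.Results.P321.NoJointPolynomial

open scoped NNReal
open Vale.Agent.P321

/-- The worst-case sample complexity of trace reconstruction is not bounded by any polynomial in
`n` and `1 / (1 - q)` jointly. -/
theorem result (C : ℕ) :
    ∃ (n : ℕ) (q : ℝ≥0) (hq : q ≤ 1), 0 < q ∧ q < 1 ∧
      ∀ m : ℕ, Reconstructs q hq n m → ((n : ℝ) / (1 - (q : ℝ))) ^ C < m :=
  no_joint_polynomial C

end Vale.Agent.Results.P321.NoJointPolynomial
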